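import Vale.Agent.P088.R2.H31.EP.Dat

/-!
# P088, stage 3: the data in rate units (row EP-TOP-RD)
-/

open Set Filter MeasureTheory
open scoped ContDiff Topology Matrix

noncomputable section

namespace Vale.Agent.P088.R2.H871.RD

open Vale.Agent.P088.LR Vale.Agent.P088.HY Vale.Agent.P088.HY.T3 Vale.Agent.P088.HY.T4
open Vale.Agent.P088.R2.H31.EP
open Vale.Agent.P088.R2.H269 (ky)
open Vale.Agent.P088.S4 (Ivg)

variable {n : ℕ}

/-- Derivatives and scaling. -/
theorem it_scale {f : V n → ℝ} (hf : ContDiff ℝ ∞ f) {c : ℝ} (hc : 0 ≤ c) (m : ℕ) (x : V n) :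
    ‖iteratedFDeriv ℝ m (fun x => f (c • x)) x‖ ≤ ‖iteratedFDeriv ℝ m f (c • x)‖ * c ^ m := by
  set g : V n →L[ℝ] V n := c • ContinuousLinearMap.id ℝ (V n) with hg
  have h : iteratedFDeriv ℝ m (f ∘ g) x =
      (iteratedFDeriv ℝ m f (g x)).compContinuousLinearMap fun _ => g :=
    g.iteratedFDeriv_comp_right hf x (by exact_mod_cast le_top)
  have e : (fun x => f (c • x)) = f ∘ g := by
    funext y
    simp [hg]
  have e2 : g x = c • x := by simp [hg]
  have h1 : ‖g‖ ≤ c := by
    refine g.opNorm_le_bound hc fun y => ?_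
    have : g y = c • y := by simp [hg]
    rw [this, norm_smul, Real.norm_eq_abs, abs_of_nonneg hc]
  rw [e, h, e2]
  refine (ContinuousMultilinearMap.norm_compContinuousLinearMap_le _ _).trans ?_
  refine mul_le_mul_of_nonneg_left ?_ (norm_nonneg _)
  rw [Finset.prod_const, Finset.card_univ, Fintype.card_fin]
  exact pow_le_pow_left₀ (norm_nonneg _) h1 m

theorem sq_smul (c : ℝ) (x : V n) : HY.sq (c • x) = c ^ 2 * HY.sq x := by
  unfold HY.sq
  rw [Finset.mul_sum]
  refine Finset.sum_congr rfl fun i _ => ?_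
  simp only [Pi.smul_apply, smul_eq_mul]
  ring

theorem sq_cont : Continuous (HY.sq : V n → ℝ) := by
  unfold HY.sq
  fun_prop

/-- The level is very low near the origin. -/
theorem gy_low (hn : 3 ≤ n) {σ : ℝ} (hσ : 0 < σ) (hσ1 : σ ≤ 1 / 10) {y : V n}
    (hy : HY.sq y ≤ (1 / 22) ^ 2) : gy n σ y ≤ -(8 / 10) := by
  have h0 : (∑ i, y i * e0 n i) = y ⟨0, by omega⟩ := by
    rw [Finset.sum_eq_single (⟨0, by omega⟩ : Fin n)]
    · simp [e0]
    · intro b _ hb
      have : b.val ≠ 0 := fun h => hb (Fin.ext h)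
      simp [e0, this]
    · intro h
      exact absurd (Finset.mem_univ _) h
  have h1 : y ⟨0, by omega⟩ ^ 2 ≤ HY.sq y := by
    unfold HY.sq
    exact Finset.single_le_sum (f := fun j => y j ^ 2) (fun j _ => sq_nonneg (y j))
      (Finset.mem_univ _)
  have h2 : HY.sq (e0 n) = 1 := by
    unfold HY.sq
    rw [Finset.sum_eq_single (⟨0, by omega⟩ : Fin n)]
    · simp [e0]
    · intro b _ hb
      have : b.val ≠ 0 := fun h => hb (Fin.ext h)
      simp [e0, this]
    · intro h
      exact absurd (Finset.mem_univ _) h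
  have h3 : HY.sq (y - e0 n) = HY.sq y - 2 * (∑ i, y i * e0 n i) + HY.sq (e0 n) := by
    unfold HY.sq
    rw [Finset.mul_sum, ← Finset.sum_sub_distrib, ← Finset.sum_add_distrib]
    refine Finset.sum_congr rfl fun i _ => ?_
    simp only [Pi.sub_apply]
    ring
  unfold gy
  rw [h3, h2, h0]
  have h4 : |y ⟨0, by omega⟩| ≤ 1 / 22 := abs_le_of_sq_le_sq (h1.trans hy) (by norm_num)
  have h5 := (abs_le.1 h4).1
  have h6 := (abs_le.1 h4).2
  have h7 : HY.sq y - 2 * y ⟨0, by omega⟩ + 1 ≤ 12 / 10 := by nlinarith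
  have h8 : 0 ≤ HY.sq y - 2 * y ⟨0, by omega⟩ + 1 := by
    have : 0 ≤ HY.sq y := (sq_nonneg _).trans h1
    linarith
  nlinarith

/-- **EP-TOP-RD.** -/
theorem rowRD : RowRD := by
  intro n hn K ε M ν hε hM hν
  refine ⟨max 1 ((ε ^ 2)⁻¹), le_max_left _ _, ?_⟩
  intro σ s₁ s₂ hσ hσ1 hI R kap Gs η C hR hη hGs hGs0 hC hk1 hk2 hds
  have hR1 : 1 ≤ R := (le_max_left _ _).trans hR
  have hR0 : 0 < R := one_pos.trans_le hR1
  have hRe : (ε ^ 2)⁻¹ ≤ R := (le_max_right _ _).trans hR
  have hRi : 0 ≤ R⁻¹ := (inv_pos.2 hR0).le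
  have hkap : 1 ≤ kap := (Real.one_le_rpow hR1 (by linarith)).trans hk1
  have hkR : R ≤ kap := by
    refine le_trans ?_ hk1
    calc R = R ^ (1 : ℝ) := (Real.rpow_one R).symm
      _ ≤ R ^ C := Real.rpow_le_rpow_of_exponent_le hR1 hC
  have hk0 : 0 < kap := one_pos.trans_le hkap
  have sd : ∀ i j, ContDiff ℝ ∞ fun x => s₂ x i j - s₁ x i j := fun i j =>
    (hI.sm₂ i j).sub (hI.sm₁ i j)
  have key : ∀ i j, ∀ m ≤ K, ∀ x : V n,
      ‖iteratedFDeriv ℝ m (fun x => s₂ x i j - s₁ x i j) (R⁻¹ • x)‖ ≤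
        ε * min 1 (Real.exp (-(M * lv n σ R kap Gs x))) := by
    intro i j m hm x
    set y : V n := R⁻¹ • x with hy
    set l : ℝ := lv n σ R kap Gs x with hl
    have hb : ‖iteratedFDeriv ℝ m (fun x => s₂ x i j - s₁ x i j) y‖ ≤ ε := by
      have e : (fun x => s₂ x i j - s₁ x i j) = fun x =>
          (s₂ x i j - (1 : Matrix (Fin n) (Fin n) ℝ) i j) -
            (s₁ x i j - (1 : Matrix (Fin n) (Fin n) ℝ) i j) := by
        funext x
        ring
      have c1 : ContDiff ℝ ∞ fun x => s₁ x i j - (1 : Matrix (Fin n) (Fin n) ℝ) i j :=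
        (hI.sm₁ i j).sub contDiff_const
      have c2 : ContDiff ℝ ∞ fun x => s₂ x i j - (1 : Matrix (Fin n) (Fin n) ℝ) i j :=
        (hI.sm₂ i j).sub contDiff_const
      rw [e, fun_iteratedFDeriv_sub_apply
        ((c2.of_le (by exact_mod_cast le_top)).contDiffAt)
        ((c1.of_le (by exact_mod_cast le_top)).contDiffAt)]
      refine (norm_sub_le _ _).trans ?_
      have := hI.cl₁ i j m hm y
      have := hI.cl₂ i j m hm y
      linarith
    by_cases hl0 : l ≤ 0
    · have : 1 ≤ Real.exp (-(M * l)) := Real.one_le_exp (by nlinarith)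
      rw [min_eq_left this, mul_one]
      exact hb
    · rw [not_le] at hl0
      have he : Real.exp (-(M * l)) ≤ 1 := Real.exp_le_one_iff.2 (by nlinarith)
      rw [min_eq_right he]
      have hky : ky n σ R kap Gs y = R * Real.exp l := by
        unfold ky
        rw [hl]
        unfold lv
        rw [Real.exp_add, Real.exp_log (by positivity), ← hy]
        field_simp
      have hky1 : 1 ≤ ky n σ R kap Gs y := by
        rw [hky]
        have : 1 ≤ Real.exp l := Real.one_le_exp hl0.le
        nlinarith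
      by_cases h1 : 1 < HY.sq y
      · have : (fun x => s₂ x i j - s₁ x i j) =ᶠ[𝓝 y] fun _ => (0 : ℝ) := by
          filter_upwards [(isOpen_lt continuous_const sq_cont).mem_nhds h1] with w hw
          rw [hI.eq w (le_of_lt hw)]
          ring
        rw [(this.iteratedFDeriv ℝ m).eq_of_nhds]
        have h0 : iteratedFDeriv ℝ m (fun _ : V n => (0 : ℝ)) y = 0 := by
          have := iteratedFDeriv_fun_zero (𝕜 := ℝ) (E := V n) (F := ℝ) (n := m)
          exact congrFun this y
        rw [h0, norm_zero]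
        positivity
      · rw [not_lt] at h1
        by_cases h2 : HY.sq y ≤ (1 / 22) ^ 2
        · exfalso
          have hg := gy_low hn hσ hσ1 h2
          have h3 : l ≤ η * R + R * (gy n σ y - Gs) := by
            rw [hl]
            unfold lv
            rw [← hy]
            have : Real.log (kap / R) ≤ η * R := by
              rw [Real.log_div hk0.ne' hR0.ne']
              have h4 : Real.log kap ≤ η * R := by
                rw [Real.log_le_iff_le_exp hk0]
                exact hk2
              have h5 : 0 ≤ Real.log R := Real.log_nonneg hR1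
              linarith
            linarith
          have h4 : η * R + R * (gy n σ y - Gs) ≤ 0 := by
            have : η + (gy n σ y - Gs) ≤ 0 := by linarith
            nlinarith
          linarith
        · rw [not_le] at h2
          have hA : y ∈ Ac n (1 / 22) 1 := by
            refine ⟨?_, ?_⟩
            · exact Real.le_sqrt_of_sq_le h2.le
            · exact Real.sqrt_le_one.2 h1
          refine (hds y hA hky1 i j m hm).trans ?_
          have e1 : kap ^ (-(1 / 2) : ℝ) ≤ ε := by
            have h5 : (ε ^ 2)⁻¹ ≤ kap := hRe.trans hkR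
            calc kap ^ (-(1 / 2) : ℝ) ≤ ((ε ^ 2)⁻¹) ^ (-(1 / 2) : ℝ) :=
                  Real.rpow_le_rpow_of_nonpos (by positivity) h5 (by norm_num)
              _ = ε := by
                  rw [Real.inv_rpow (by positivity), Real.rpow_neg (by positivity), inv_inv,
                    ← Real.sqrt_eq_rpow, Real.sqrt_sq hε.le]
          have e2 : ky n σ R kap Gs y ^ (-(ν / 2)) ≤ Real.exp (-(M * l)) := by
            calc ky n σ R kap Gs y ^ (-(ν / 2)) ≤ ky n σ R kap Gs y ^ (-M) :=
                  Real.rpow_le_rpow_of_exponent_le hky1 (by linarith)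
              _ ≤ (Real.exp l) ^ (-M) := by
                  refine Real.rpow_le_rpow_of_nonpos (Real.exp_pos l) ?_ (by linarith)
                  rw [hky]
                  have := Real.exp_pos l
                  nlinarith
              _ = Real.exp (-(M * l)) := by
                  rw [← Real.exp_mul]
                  congr 1
                  ring
          exact mul_le_mul e1 e2 (Real.rpow_nonneg (zero_le_one.trans hky1) _) hε.le
  refine ⟨?_, ?_, ?_, ?_, ?_, ?_, ?_, ?_, ?_⟩
  · intro i j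
    exact (hI.sm₁ i j).comp (contDiff_const_smul R⁻¹)
  · intro i j
    exact (hI.sm₂ i j).comp (contDiff_const_smul R⁻¹)
  · intro x
    exact hI.sy₁ _
  · intro x
    exact hI.sy₂ _
  · intro i j m hm x
    have c1 : ContDiff ℝ ∞ fun x => s₁ x i j - (1 : Matrix (Fin n) (Fin n) ℝ) i j :=
      (hI.sm₁ i j).sub contDiff_const
    refine (it_scale c1 hRi m x).trans ?_
    have := hI.cl₁ i j m hm (R⁻¹ • x)
    exact mul_le_mul_of_nonneg_right (by linarith) (pow_nonneg hRi m)
  · intro i j m hm x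
    have c1 : ContDiff ℝ ∞ fun x => s₂ x i j - (1 : Matrix (Fin n) (Fin n) ℝ) i j :=
      (hI.sm₂ i j).sub contDiff_const
    refine (it_scale c1 hRi m x).trans ?_
    have := hI.cl₂ i j m hm (R⁻¹ • x)
    exact mul_le_mul_of_nonneg_right (by linarith) (pow_nonneg hRi m)
  · intro x hx
    refine hI.of (R⁻¹ • x) fun h => hx ?_
    have h1 : HY.sq (R⁻¹ • x - 0) < 2 ^ 2 := h
    show HY.sq (x - 0) < (2 * R) ^ 2
    rw [sub_zero, sq_smul] at h1
    rw [sub_zero]
    have h2 : HY.sq x = R ^ 2 * (R⁻¹ ^ 2 * HY.sq x) := by field_simp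
    rw [h2]
    nlinarith [pow_pos hR0 2]
  · intro x hx
    refine hI.eq (R⁻¹ • x) ?_
    rw [sq_smul]
    have h2 : R⁻¹ ^ 2 * R ^ 2 = 1 := by field_simp
    have h3 : 0 ≤ R⁻¹ ^ 2 := by positivity
    nlinarith [mul_le_mul_of_nonneg_left hx h3]
  · intro i j m hm x
    refine (it_scale (sd i j) hRi m x).trans ?_
    have := key i j m hm x
    calc ‖iteratedFDeriv ℝ m (fun x => s₂ x i j - s₁ x i j) (R⁻¹ • x)‖ * R⁻¹ ^ m
        ≤ (ε * min 1 (Real.exp (-(M * lv n σ R kap Gs x)))) * R⁻¹ ^ m :=
          mul_le_mul_of_nonneg_right this (pow_nonneg hRi m)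
      _ = _ := by ring

end Vale.Agent.P088.R2.H871.RD
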